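import Vale.Agent.P159.TM.H331.Box

/-!
Row ISAND (D2f): the currents without divergence on all the bonds of the box are the gradients of
the heights extended by `0`.
-/

open scoped BigOperators

set_option linter.all false

namespace Vale.Agent.P159.TM.H331

open Vale.Agent.P159 Vale.Agent.P159.H353 Vale.Agent.P159.R2.H254

variable {N : ℕ}

/-- horizontal currents with natural indices -/
def nX (n : Bd N → ℤ) (i j : ℕ) : ℤ :=
  if h : i < N + 1 ∧ j < N + 2 then n (Sum.inl (⟨i, h.1⟩, ⟨j, h.2⟩)) else 0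

/-- vertical currents with natural indices -/
def nY (n : Bd N → ℤ) (i j : ℕ) : ℤ :=
  if h : i < N + 2 ∧ j < N + 1 then n (Sum.inr (⟨i, h.1⟩, ⟨j, h.2⟩)) else 0

lemma nX_eq (n : Bd N → ℤ) (i j : ℕ) (hi : i < N + 1) (hj : j < N + 2) :
    nX n i j = n (Sum.inl (⟨i, hi⟩, ⟨j, hj⟩)) := by
  unfold nX
  rw [dif_pos ⟨hi, hj⟩]

lemma nY_eq (n : Bd N → ℤ) (i j : ℕ) (hi : i < N + 2) (hj : j < N + 1) :
    nY n i j = n (Sum.inr (⟨i, hi⟩, ⟨j, hj⟩)) := by
  unfold nY
  rw [dif_pos ⟨hi, hj⟩]

lemma dvg_nat (n : Bd N → ℤ) (a b : ℕ) (ha : a < N + 2) (hb : b < N + 2) :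
    dvg bs bt n (⟨a, ha⟩, ⟨b, hb⟩) = nX n a b + nY n a b - (if 0 < a then nX n (a - 1) b else 0) -
      (if 0 < b then nY n a (b - 1) else 0) := by
  unfold dvg
  rw [Finset.sum_sub_distrib, Fintype.sum_sum_type, Fintype.sum_sum_type]
  have i1 : Function.Injective fun p : Fin (N + 1) × Fin (N + 2) => bs (Sum.inl p : Bd N) := by
    rintro ⟨x, y⟩ ⟨x', y'⟩ h
    simp only [bs, Prod.mk.injEq] at h
    exact Prod.ext (Fin.castSucc_injective _ h.1) h.2
  have i2 : Function.Injective fun p : Fin (N + 1) × Fin (N + 2) => bt (Sum.inl p : Bd N) := by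
    rintro ⟨x, y⟩ ⟨x', y'⟩ h
    simp only [bt, Prod.mk.injEq] at h
    exact Prod.ext (Fin.succ_injective _ h.1) h.2
  have i3 : Function.Injective fun p : Fin (N + 2) × Fin (N + 1) => bs (Sum.inr p : Bd N) := by
    rintro ⟨x, y⟩ ⟨x', y'⟩ h
    simp only [bs, Prod.mk.injEq] at h
    exact Prod.ext h.1 (Fin.castSucc_injective _ h.2)
  have i4 : Function.Injective fun p : Fin (N + 2) × Fin (N + 1) => bt (Sum.inr p : Bd N) := by
    rintro ⟨x, y⟩ ⟨x', y'⟩ h
    simp only [bt, Prod.mk.injEq] at h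
    exact Prod.ext h.1 (Fin.succ_injective _ h.2)
  have s1 : ∑ p : Fin (N + 1) × Fin (N + 2),
      (if bs (Sum.inl p : Bd N) = (⟨a, ha⟩, ⟨b, hb⟩) then n (Sum.inl p) else 0) = nX n a b := by
    by_cases h : a < N + 1
    · rw [sum_pick (fun p : Fin (N + 1) × Fin (N + 2) => bs (Sum.inl p : Bd N)) i1
        (⟨a, h⟩, ⟨b, hb⟩) (fun p => n (Sum.inl p)) _ (by simp [bs]), nX_eq n a b h hb]
    · unfold nX
      rw [dif_neg (fun h' => h h'.1)]
      refine Finset.sum_eq_zero fun p _ => ?_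
      rw [if_neg]
      rintro h'
      simp only [bs, Prod.mk.injEq, Fin.ext_iff, Fin.val_castSucc] at h'
      have := p.1.2
      omega
  have s2 : ∑ p : Fin (N + 2) × Fin (N + 1),
      (if bs (Sum.inr p : Bd N) = (⟨a, ha⟩, ⟨b, hb⟩) then n (Sum.inr p) else 0) = nY n a b := by
    by_cases h : b < N + 1
    · rw [sum_pick (fun p : Fin (N + 2) × Fin (N + 1) => bs (Sum.inr p : Bd N)) i3
        (⟨a, ha⟩, ⟨b, h⟩) (fun p => n (Sum.inr p)) _ (by simp [bs]), nY_eq n a b ha h]
    · unfold nY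
      rw [dif_neg (fun h' => h h'.2)]
      refine Finset.sum_eq_zero fun p _ => ?_
      rw [if_neg]
      rintro h'
      simp only [bs, Prod.mk.injEq, Fin.ext_iff, Fin.val_castSucc] at h'
      have := p.2.2
      omega
  have s3 : ∑ p : Fin (N + 1) × Fin (N + 2),
      (if bt (Sum.inl p : Bd N) = (⟨a, ha⟩, ⟨b, hb⟩) then n (Sum.inl p) else 0) =
      if 0 < a then nX n (a - 1) b else 0 := by
    by_cases h : 0 < a
    · rw [sum_pick (fun p : Fin (N + 1) × Fin (N + 2) => bt (Sum.inl p : Bd N)) i2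
        (⟨a - 1, by omega⟩, ⟨b, hb⟩) (fun p => n (Sum.inl p)) _ (by
          simp only [bt, Prod.mk.injEq, Fin.ext_iff, Fin.val_succ, and_true]; omega), if_pos h,
        nX_eq n (a - 1) b (by omega) hb]
    · rw [if_neg h]
      refine Finset.sum_eq_zero fun p _ => ?_
      rw [if_neg]
      rintro h'
      simp only [bt, Prod.mk.injEq, Fin.ext_iff, Fin.val_succ] at h'
      omega
  have s4 : ∑ p : Fin (N + 2) × Fin (N + 1),
      (if bt (Sum.inr p : Bd N) = (⟨a, ha⟩, ⟨b, hb⟩) then n (Sum.inr p) else 0) =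
      if 0 < b then nY n a (b - 1) else 0 := by
    by_cases h : 0 < b
    · rw [sum_pick (fun p : Fin (N + 2) × Fin (N + 1) => bt (Sum.inr p : Bd N)) i4
        (⟨a, ha⟩, ⟨b - 1, by omega⟩) (fun p => n (Sum.inr p)) _ (by
          simp only [bt, Prod.mk.injEq, Fin.ext_iff, Fin.val_succ, true_and]; omega), if_pos h,
        nY_eq n a (b - 1) ha (by omega)]
    · rw [if_neg h]
      refine Finset.sum_eq_zero fun p _ => ?_
      rw [if_neg]
      rintro h'
      simp only [bt, Prod.mk.injEq, Fin.ext_iff, Fin.val_succ] at h'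
      omega
  rw [s1, s2, s3, s4]
  ring

lemma he_out {h : Fa N → ℤ} {i j : ℕ} (H : ¬ ((0 < i ∧ i < N + 2) ∧ (0 < j ∧ j < N + 2))) :
    he h i j = 0 := by
  unfold he
  rw [dif_neg H]

lemma he_in' (h : Fa N → ℤ) (i j : ℕ) (hi : i < N + 1) (hj : j < N + 1) :
    he h (i + 1) (j + 1) = h (⟨i, hi⟩, ⟨j, hj⟩) := by
  unfold he
  rw [dif_pos (by omega)]
  rfl

lemma nX_fcur (h : Fa N → ℤ) (i j : ℕ) (hj : j < N + 2) :
    nX (fcur h) i j = he h (i + 1) (j + 1) - he h (i + 1) j := by
  by_cases hi : i < N + 1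
  · rw [nX_eq _ i j hi hj]
    rfl
  · unfold nX
    rw [dif_neg (fun h' => hi h'.1), he_out (by omega), he_out (by omega), sub_zero]

lemma nY_fcur (h : Fa N → ℤ) (i j : ℕ) (hi : i < N + 2) :
    nY (fcur h) i j = he h i (j + 1) - he h (i + 1) (j + 1) := by
  by_cases hj : j < N + 1
  · rw [nY_eq _ i j hi hj]
    rfl
  · unfold nY
    rw [dif_neg (fun h' => hj h'.2), he_out (by omega), he_out (by omega), sub_zero]

/-- **(D2f)** gradients have no divergence -/
theorem d2f_div : D2f_div := by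
  rintro N h ⟨⟨a, ha⟩, ⟨b, hb⟩⟩
  rw [dvg_nat, nX_fcur h a b hb, nY_fcur h a b ha]
  have e1 : (if 0 < a then nX (fcur h) (a - 1) b else 0) = he h a (b + 1) - he h a b := by
    by_cases h0 : 0 < a
    · rw [if_pos h0, nX_fcur h (a - 1) b hb]
      have : a - 1 + 1 = a := by omega
      rw [this]
    · rw [if_neg h0, he_out (by omega), he_out (by omega), sub_zero]
  have e2 : (if 0 < b then nY (fcur h) a (b - 1) else 0) = he h a b - he h (a + 1) b := by
    by_cases h0 : 0 < b
    · rw [if_pos h0, nY_fcur h a (b - 1) ha]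
      have : b - 1 + 1 = b := by omega
      rw [this]
    · rw [if_neg h0, he_out (by omega), he_out (by omega), sub_zero]
  rw [e1, e2]
  ring

/-- **(D2f)** injectivity -/
theorem d2f_inj : D2f_inj := by
  intro N h k hk
  have key : ∀ (j i : ℕ), i < N + 1 → j < N + 2 → he h (i + 1) j = he k (i + 1) j := by
    intro j
    induction j with
    | zero =>
      intro i hi hj
      rw [he_out (by omega), he_out (by omega)]
    | succ j ih =>
      intro i hi hj
      have h1 := ih i hi (by omega)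
      have h2 := congrFun hk (Sum.inl (⟨i, hi⟩, ⟨j, by omega⟩))
      simp only [fcur] at h2
      omega
  funext x
  obtain ⟨⟨i, hi⟩, ⟨j, hj⟩⟩ := x
  rw [← he_in' h i j hi hj, ← he_in' k i j hi hj]
  exact key (j + 1) i hi (by omega)

/-- **(D2f)** currents without divergence are gradients -/
theorem d2f_surj : D2f_surj := by
  intro N n hn
  set H : ℕ → ℕ → ℤ := fun i j => if i = 0 then 0 else ∑ c ∈ Finset.range j, nX n (i - 1) c
    with hH
  have H0 : ∀ j, H 0 j = 0 := fun j => by simp [hH]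
  have Hs : ∀ i j, H (i + 1) j = ∑ c ∈ Finset.range j, nX n i c := fun i j => by simp [hH]
  have HN : ∀ j, H (N + 2) j = 0 := by
    intro j
    rw [Hs]
    refine Finset.sum_eq_zero fun c _ => ?_
    unfold nX
    rw [dif_neg (by omega)]
  have Hj0 : ∀ i, H i 0 = 0 := by
    intro i
    simp [hH]
  have hx : ∀ i j, nX n i j = H (i + 1) (j + 1) - H (i + 1) j := by
    intro i j
    rw [Hs, Hs, Finset.sum_range_succ]
    ring
  have hx' : ∀ i j, (if 0 < i then nX n (i - 1) j else 0) = H i (j + 1) - H i j := by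
    intro i j
    by_cases h0 : 0 < i
    · rw [if_pos h0, hx]
      have : i - 1 + 1 = i := by omega
      rw [this]
    · have : i = 0 := by omega
      rw [if_neg h0, this, H0, H0, sub_zero]
  have hy : ∀ b a : ℕ, a < N + 2 → b < N + 2 → nY n a b = H a (b + 1) - H (a + 1) (b + 1) := by
    intro b
    induction b with
    | zero =>
      intro a ha hb
      have h1 := hn (⟨a, ha⟩, ⟨0, hb⟩)
      rw [dvg_nat n a 0 ha hb, if_neg (by omega : ¬ 0 < 0), hx', hx] at h1
      rw [Hj0, Hj0] at h1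
      linarith
    | succ b ih =>
      intro a ha hb
      have h1 := hn (⟨a, ha⟩, ⟨b + 1, hb⟩)
      have h2 := ih a ha (by omega)
      rw [dvg_nat n a (b + 1) ha hb, if_pos (by omega : 0 < b + 1), hx', hx,
        Nat.add_sub_cancel, h2] at h1
      linarith
  have hN2 : ∀ a, a < N + 3 → H a (N + 2) = 0 := by
    intro a
    induction a with
    | zero => intro _; exact H0 _
    | succ a ih =>
      intro ha
      have h1 := hy (N + 1) a (by omega) (by omega)
      have h2 : nY n a (N + 1) = 0 := by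
        unfold nY
        rw [dif_neg (by omega)]
      rw [h2, ih (by omega)] at h1
      linarith
  refine ⟨fun x => H (x.1.1 + 1) (x.2.1 + 1), ?_⟩
  have hh : ∀ i j, i < N + 3 → j < N + 3 →
      he (fun x : Fa N => H (x.1.1 + 1) (x.2.1 + 1)) i j = H i j := by
    intro i j hi hj
    by_cases hc : (0 < i ∧ i < N + 2) ∧ (0 < j ∧ j < N + 2)
    · unfold he
      rw [dif_pos hc]
      simp only
      have e1 : i - 1 + 1 = i := by omega
      have e2 : j - 1 + 1 = j := by omega
      rw [e1, e2]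
    · rw [he_out hc]
      by_cases h1 : i = 0
      · rw [h1, H0]
      · by_cases h2 : i = N + 2
        · rw [h2, HN]
        · by_cases h3 : j = 0
          · rw [h3, Hj0]
          · have h4 : j = N + 2 := by omega
            rw [h4, hN2 i hi]
  funext e
  rcases e with ⟨⟨i, hi⟩, ⟨j, hj⟩⟩ | ⟨⟨i, hi⟩, ⟨j, hj⟩⟩
  · show he _ (i + 1) (j + 1) - he _ (i + 1) j = _
    rw [hh _ _ (by omega) (by omega), hh _ _ (by omega) (by omega), ← hx i j, nX_eq n i j hi hj]
  · show he _ i (j + 1) - he _ (i + 1) (j + 1) = _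
    rw [hh _ _ (by omega) (by omega), hh _ _ (by omega) (by omega), ← hy j i hi (by omega),
      nY_eq n i j hi hj]

end Vale.Agent.P159.TM.H331
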