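import Vale.Agent.P159.TM.H331.Isand
import Vale.Agent.P159.TM.H331.Free

/-!
Row ISAND, final forms.
-/

open MeasureTheory Filter Topology
open scoped BigOperators

set_option linter.all false

namespace Vale.Agent.P159.TM.H331

open Vale.Agent.P159 Vale.Agent.P159.H353 Vale.Agent.P159.T1.H42 Vale.Agent.P159.TM.H389
open Vale.Agent.P159.R2.H254

/-- the constant of the annulus between the square `[p, p+r] × [q, q+r]` and the boundary -/
def AnnK (N : ℕ) (b : ℝ) (p q r : ℕ) (K : ℝ) : Prop :=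
  ∃ o o' : St N, o ∈ sqS N p q r ∧ o' ∈ ringS N ∧
    Zww (ann N b p q r) (sqS N p q r) o (ringS N) o' *
        ∫ θ, ann N b p q r θ ∂(torusHaar (St N)) ≤
      K * ((∫ θ, ann N b p q r (pin (sqS N p q r) 0 θ) ∂(torusHaar (St N))) *
        ∫ θ, ann N b p q r (pin (ringS N) 0 θ) ∂(torusHaar (St N)))

variable {N p q r : ℕ} {b : ℝ}

/-- **ISAND** for functions of the gradient inside the square -/
theorem isand (hb : 0 ≤ b) (hr : 1 ≤ r)
    (hp1 : 1 ≤ p) (hp : p + r ≤ N) (hq1 : 1 ≤ q) (hq : q + r ≤ N) {K : ℝ}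
    (hK : AnnK N b p q r K)
    {Φ : ({e : Bd N // inP p q r e} → ℤ) → ℝ} {C : ℝ} (hΦ : ∀ n, |Φ n| ≤ C)
    (h0 : ∀ n, 0 ≤ Φ n) :
    (∑' h : Fa N → ℤ, W0 N b h * Φ (gP p q r h)) * (∑' h : Hgt N, hWt N b h.1) ≤
      K * ((∑' h : Fa N → ℤ, W0 N b h) * ∑' h : Hgt N, hWt N b h.1 * Φ (gP p q r h.1)) := by
  obtain ⟨o, o', ho, ho', h⟩ := hK
  exact isand' d2f_div d2f_inj d2f_surj hb hr hp1 hp hq1 hq ho ho' h hΦ h0

/-- the gradient inside the square determines the differences inside the square -/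
lemma diff_of_gP (hp : p + r ≤ N + 1) (hq : q + r ≤ N + 1) {h k : Fa N → ℤ}
    (hk : gP p q r h = gP p q r k) :
    ∀ (i j : ℕ) (hi : i < r) (hj : j < r),
      h (⟨p + i, by omega⟩, ⟨q + j, by omega⟩) - h (⟨p, by omega⟩, ⟨q, by omega⟩) =
      k (⟨p + i, by omega⟩, ⟨q + j, by omega⟩) - k (⟨p, by omega⟩, ⟨q, by omega⟩) := by
  have hor : ∀ (i j : ℕ) (hi : i < r) (hj : j + 1 < r),
      h (⟨p + i, by omega⟩, ⟨q + (j + 1), by omega⟩) - h (⟨p + i, by omega⟩, ⟨q + j, by omega⟩) =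
      k (⟨p + i, by omega⟩, ⟨q + (j + 1), by omega⟩) -
        k (⟨p + i, by omega⟩, ⟨q + j, by omega⟩) := by
    intro i j hi hj
    have h1 := congrFun hk ⟨Sum.inl (⟨p + i, by omega⟩, ⟨q + (j + 1), by omega⟩), by
      simp only [inP]; omega⟩
    simp only [gP, fcur] at h1
    have e1 := he_in' h (p + i) (q + (j + 1)) (by omega) (by omega)
    have e2 := he_in' h (p + i) (q + j) (by omega) (by omega)
    have e3 := he_in' k (p + i) (q + (j + 1)) (by omega) (by omega)
    have e4 := he_in' k (p + i) (q + j) (by omega) (by omega)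
    have e5 : q + (j + 1) = q + j + 1 := by ring
    rw [e1, e3] at h1
    rw [show he h (p + i + 1) (q + (j + 1)) = he h (p + i + 1) (q + j + 1) by rw [e5], e2,
      show he k (p + i + 1) (q + (j + 1)) = he k (p + i + 1) (q + j + 1) by rw [e5], e4] at h1
    exact h1
  have ver : ∀ (i : ℕ) (hi : i + 1 < r),
      h (⟨p + (i + 1), by omega⟩, ⟨q, by omega⟩) - h (⟨p + i, by omega⟩, ⟨q, by omega⟩) =
      k (⟨p + (i + 1), by omega⟩, ⟨q, by omega⟩) - k (⟨p + i, by omega⟩, ⟨q, by omega⟩) := by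
    intro i hi
    have h1 := congrFun hk ⟨Sum.inr (⟨p + (i + 1), by omega⟩, ⟨q, by omega⟩), by
      simp only [inP]; omega⟩
    simp only [gP, fcur] at h1
    have e1 := he_in' h (p + (i + 1)) q (by omega) (by omega)
    have e2 := he_in' h (p + i) q (by omega) (by omega)
    have e3 := he_in' k (p + (i + 1)) q (by omega) (by omega)
    have e4 := he_in' k (p + i) q (by omega) (by omega)
    have e5 : p + (i + 1) = p + i + 1 := by ring
    rw [e1, e3] at h1
    rw [show he h (p + (i + 1)) (q + 1) = he h (p + i + 1) (q + 1) by rw [e5], e2,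
      show he k (p + (i + 1)) (q + 1) = he k (p + i + 1) (q + 1) by rw [e5], e4] at h1
    linarith
  have hcol : ∀ (i : ℕ) (hi : i < r),
      h (⟨p + i, by omega⟩, ⟨q, by omega⟩) - h (⟨p, by omega⟩, ⟨q, by omega⟩) =
      k (⟨p + i, by omega⟩, ⟨q, by omega⟩) - k (⟨p, by omega⟩, ⟨q, by omega⟩) := by
    intro i
    induction i with
    | zero => intro hi; simp
    | succ i ih =>
      intro hi
      have h1 := ih (by omega)
      have h2 := ver i hi
      linarith
  intro i j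
  induction j with
  | zero => intro hi hj; exact hcol i hi
  | succ j ih =>
    intro hi hj
    have h1 := ih hi (by omega)
    have h2 := hor i j hi hj
    linarith

/-- the face `(x, y)` is in the square -/
def inSq (p q r : ℕ) (f : Fa N) : Prop :=
  (p ≤ f.1.1 ∧ f.1.1 < p + r) ∧ (q ≤ f.2.1 ∧ f.2.1 < q + r)

/-- a function of the differences inside the square -/
def OfDiff (p q r : ℕ) (F : (Fa N → ℤ) → ℝ) : Prop :=
  ∀ h k : Fa N → ℤ, (∀ f g : Fa N, inSq p q r f → inSq p q r g → h f - h g = k f - k g) →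
    F h = F k

/-- **ISAND** for functions of the differences of the heights inside the square:
`E^0[F] ≤ K * E^w[F]` -/
theorem isand_fun (hb : 0 ≤ b) (hr : 1 ≤ r)
    (hp1 : 1 ≤ p) (hp : p + r ≤ N) (hq1 : 1 ≤ q) (hq : q + r ≤ N) {K : ℝ}
    (hK : AnnK N b p q r K)
    {F : (Fa N → ℤ) → ℝ} {C : ℝ} (hF : ∀ h, F h ≤ C) (h0 : ∀ h, 0 ≤ F h)
    (hd : OfDiff p q r F) :
    (∑' h : Fa N → ℤ, W0 N b h * F h) * (∑' h : Hgt N, hWt N b h.1) ≤
      K * ((∑' h : Fa N → ℤ, W0 N b h) * ∑' h : Hgt N, hWt N b h.1 * F h.1) := by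
  classical
  have hFg : ∀ h k : Fa N → ℤ, gP p q r h = gP p q r k → F h = F k := by
    intro h k hk
    apply hd
    intro f g hf hg
    obtain ⟨⟨x, hx⟩, ⟨y, hy⟩⟩ := f
    obtain ⟨⟨x', hx'⟩, ⟨y', hy'⟩⟩ := g
    simp only [inSq] at hf hg
    have h1 := diff_of_gP (by omega) (by omega) hk (x - p) (y - q) (by omega) (by omega)
    have h2 := diff_of_gP (by omega) (by omega) hk (x' - p) (y' - q) (by omega) (by omega)
    have e1 : p + (x - p) = x := by omega
    have e2 : q + (y - q) = y := by omega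
    have e3 : p + (x' - p) = x' := by omega
    have e4 : q + (y' - q) = y' := by omega
    simp only [e1, e2] at h1
    simp only [e3, e4] at h2
    linarith
  set Φ : ({e : Bd N // inP p q r e} → ℤ) → ℝ := fun c =>
    if H : ∃ h : Fa N → ℤ, gP p q r h = c then F H.choose else 0 with hΦ
  have hval : ∀ h : Fa N → ℤ, Φ (gP p q r h) = F h := by
    intro h
    have H : ∃ k : Fa N → ℤ, gP p q r k = gP p q r h := ⟨h, rfl⟩
    simp only [hΦ]
    rw [dif_pos H]
    exact hFg _ _ H.choose_spec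
  have hn : ∀ c, 0 ≤ Φ c := by
    intro c
    simp only [hΦ]
    split_ifs with H
    · exact h0 _
    · exact le_refl _
  have hC0 : 0 ≤ C := (h0 (fun _ => 0)).trans (hF _)
  have hbd : ∀ c, |Φ c| ≤ C := by
    intro c
    rw [abs_of_nonneg (hn c)]
    simp only [hΦ]
    split_ifs with H
    · exact hF _
    · exact hC0
  have h := isand hb hr hp1 hp hq1 hq hK hbd hn
  simp only [hval] at h
  exact h

lemma pr_diff {g : Fa N → ℝ} (hg : ∀ f, ¬ inSq p q r f → g f = 0) (hs : ∑ f, g f = 0)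
    {h k : Fa N → ℤ} (H : ∀ f g : Fa N, inSq p q r f → inSq p q r g → h f - h g = k f - k g) :
    ∑ f, g f * (h f : ℝ) = ∑ f, g f * (k f : ℝ) := by
  by_cases hne : ∃ f0 : Fa N, inSq p q r f0
  · obtain ⟨f0, hf0⟩ := hne
    have e : ∀ h : Fa N → ℤ, ∑ f, g f * (h f : ℝ) = ∑ f, g f * ((h f : ℝ) - h f0) := by
      intro h
      simp_rw [mul_sub]
      rw [Finset.sum_sub_distrib, ← Finset.sum_mul, hs]
      ring
    rw [e h, e k]
    refine Finset.sum_congr rfl fun f _ => ?_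
    by_cases hf : inSq p q r f
    · have h1 := H f f0 hf hf0
      have h2 : (h f : ℝ) - h f0 = (k f : ℝ) - k f0 := by exact_mod_cast h1
      rw [h2]
    · rw [hg f hf]
      ring
  · have hz : ∀ f, g f = 0 := fun f => hg f fun hf => hne ⟨f, hf⟩
    simp [hz]

/-- **ISAND** for the mass `exp (- l X²)` of a neutral linear functional inside the square -/
theorem isand_exp (hb : 0 ≤ b) (hr : 1 ≤ r)
    (hp1 : 1 ≤ p) (hp : p + r ≤ N) (hq1 : 1 ≤ q) (hq : q + r ≤ N) {K : ℝ}
    (hK : AnnK N b p q r K) {g : Fa N → ℝ} (hg : ∀ f, ¬ inSq p q r f → g f = 0)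
    (hs : ∑ f, g f = 0) {l : ℝ} (hl : 0 ≤ l) :
    (∑' h : Fa N → ℤ, W0 N b h * Real.exp (-(l * (∑ f, g f * (h f : ℝ)) ^ 2))) *
        (∑' h : Hgt N, hWt N b h.1) ≤
      K * ((∑' h : Fa N → ℤ, W0 N b h) *
        ∑' h : Hgt N, hWt N b h.1 * Real.exp (-(l * (∑ f, g f * (h.1 f : ℝ)) ^ 2))) := by
  refine isand_fun hb hr hp1 hp hq1 hq hK (C := 1)
    (F := fun h => Real.exp (-(l * (∑ f, g f * (h f : ℝ)) ^ 2))) (fun h => ?_)
    (fun h => (Real.exp_pos _).le) ?_
  · apply Real.exp_le_one_iff.2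
    nlinarith [sq_nonneg (∑ f, g f * (h f : ℝ))]
  · intro h k H
    show Real.exp _ = Real.exp _
    rw [pr_diff hg hs H]

/-- the total weights are positive and finite -/
lemma W0_summable (hb : 0 ≤ b) : Summable (W0 N b) := by
  have h := (free_eq (N := N) (p := 0) (q := 0) (r := 0) d2f_div d2f_inj d2f_surj hb
    (Φ := fun _ => 1) (C := 1) (fun n => by simp)).summable
  simpa using h

lemma hWt_summable (hb : 0 ≤ b) : Summable fun h : Hgt N => hWt N b h.1 := by
  have h := (wired_sum (N := N) hb (Φ := fun _ => 1) (C := 1) (fun n => by simp)).summable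
  simpa using h

end Vale.Agent.P159.TM.H331
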