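import Vale.Agent.P159.TM.H331.Dict
import Vale.Agent.P159.R2.H254.Link

/-!
Row ISAND: the square box of faces `Fa N = Fin (N+1) × Fin (N+1)` (as in GaussianLimit), its sites
`St N`, all bonds `Bd N`, the current of a height function extended by `0`, the sub-square of
faces `[p, p+r) × [q, q+r)` and its bonds.
-/

open MeasureTheory Filter Topology
open scoped BigOperators

set_option linter.all false

namespace Vale.Agent.P159.TM.H331

open Vale.Agent.P159 Vale.Agent.P159.H353 Vale.Agent.P159.R2.H254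

/-- sites of the box -/
abbrev St (N : ℕ) : Type := Fin (N + 2) × Fin (N + 2)

/-- bonds of the box: `inl (i,j) : (i,j) → (i+1,j)`, `inr (i,j) : (i,j) → (i,j+1)` -/
abbrev Bd (N : ℕ) : Type := (Fin (N + 1) × Fin (N + 2)) ⊕ (Fin (N + 2) × Fin (N + 1))

/-- first site of a bond -/
def bs {N : ℕ} : Bd N → St N
  | Sum.inl p => (p.1.castSucc, p.2)
  | Sum.inr p => (p.1, p.2.castSucc)

/-- second site of a bond -/
def bt {N : ℕ} : Bd N → St N
  | Sum.inl p => (p.1.succ, p.2)
  | Sum.inr p => (p.1, p.2.succ)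

/-- heights with shifted indices (the face `(i,j)` has the indices `(i+1,j+1)`), `0` outside -/
def he {N : ℕ} (h : Fa N → ℤ) (i j : ℕ) : ℤ :=
  if H : (0 < i ∧ i < N + 2) ∧ (0 < j ∧ j < N + 2) then h (⟨i - 1, by omega⟩, ⟨j - 1, by omega⟩)
  else 0

/-- the current of the heights extended by `0` -/
def fcur {N : ℕ} (h : Fa N → ℤ) : Bd N → ℤ
  | Sum.inl p => he h (p.1.1 + 1) (p.2.1 + 1) - he h (p.1.1 + 1) p.2.1
  | Sum.inr p => he h p.1.1 (p.2.1 + 1) - he h (p.1.1 + 1) (p.2.1 + 1)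

/-- the boundary sites -/
def ringS (N : ℕ) : Set (St N) :=
  {v | v.1.1 = 0 ∨ v.1.1 = N + 1 ∨ v.2.1 = 0 ∨ v.2.1 = N + 1}

/-- weight of the heights with zero boundary conditions: all bonds -/
noncomputable def W0 (N : ℕ) (b : ℝ) (h : Fa N → ℤ) : ℝ := ∏ e, wI b (fcur h e)

/-- the bonds whose two faces are in `[p, p+r) × [q, q+r)` -/
def inP {N : ℕ} (p q r : ℕ) : Bd N → Prop
  | Sum.inl e => (p ≤ e.1.1 ∧ e.1.1 < p + r) ∧ (q < e.2.1 ∧ e.2.1 < q + r)
  | Sum.inr e => (p < e.1.1 ∧ e.1.1 < p + r) ∧ (q ≤ e.2.1 ∧ e.2.1 < q + r)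

instance {N : ℕ} (p q r : ℕ) : DecidablePred (inP (N := N) p q r) := fun e => by
  cases e <;> (simp only [inP]; infer_instance)

/-! ### (D2f), row of helper551 / helper647: statements wanted -/

/-- gradients have no divergence -/
def D2f_div : Prop := ∀ (N : ℕ) (h : Fa N → ℤ) (v : St N), dvg bs bt (fcur h) v = 0

/-- injectivity -/
def D2f_inj : Prop := ∀ N : ℕ, Function.Injective (fcur (N := N))

/-- currents without divergence are gradients -/
def D2f_surj : Prop := ∀ (N : ℕ) (n : Bd N → ℤ), (∀ v, dvg bs bt n v = 0) → ∃ h : Fa N → ℤ, fcur h = n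

end Vale.Agent.P159.TM.H331
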