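import Vale.Agent.P159.TM.H389.Wire
import Vale.Agent.P159.T1.H857.Dual

/-!
Row ISAND (height dictionary, D1).  On a finite graph with bonds `i : ι` from `s i` to `t i`,
for a bounded function `Φ` of the currents, the sum `UU` over the currents `n` of
`∏ wI (J i) (n i) * Φ n * cos (n · dθ)`: positive definite if `Φ ≥ 0`, equal to `exp EN` if
`Φ = 1`, multiplicative, and its integral with the spins of `S` put to `0` is the sum over the
currents without divergence off `S`.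
-/

open MeasureTheory Filter Topology
open scoped BigOperators

set_option linter.all false

namespace Vale.Agent.P159.TM.H331

open Vale.Agent.P159 Vale.Agent.P159.H353 Vale.Agent.P159.T1.H42 Vale.Agent.P159.TM.H389
open Vale.Agent.P159.R2.H254 (hasSum_cosC)

variable {V ι : Type} [Fintype V] [DecidableEq V] [Fintype ι]

/-- the phase of a current -/
noncomputable def ph (s t : ι → V) (n : ι → ℤ) (θ : V → T) : T := ∑ i, n i • (θ (s i) - θ (t i))

omit [DecidableEq V] [Fintype V] in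
lemma ph_add (s t : ι → V) (n : ι → ℤ) (x y : V → T) :
    ph s t n (x + y) = ph s t n x + ph s t n y := by
  unfold ph
  rw [← Finset.sum_add_distrib]
  refine Finset.sum_congr rfl fun i _ => ?_
  rw [← smul_add]
  congr 1
  simp only [Pi.add_apply]
  abel

omit [DecidableEq V] [Fintype V] in
lemma ph_cont (s t : ι → V) (n : ι → ℤ) : Continuous (ph s t n) := by
  unfold ph
  refine continuous_finsetSum _ fun i _ => ?_
  exact ((continuous_apply (s i)).sub (continuous_apply (t i))).zsmul _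

/-- the character of a current -/
noncomputable def chN (s t : ι → V) (n : ι → ℤ) : Chr (V → T) where
  c θ := cosT (ph s t n θ)
  s θ := sinT (ph s t n θ)
  cont_c := cont_cos.comp (ph_cont s t n)
  cont_s := cont_sin.comp (ph_cont s t n)
  c_add x y := by rw [ph_add]; exact Real.Angle.cos_add _ _
  s_add x y := by rw [ph_add]; exact Real.Angle.sin_add _ _
  norm_sq x := Real.Angle.cos_sq_add_sin_sq _

/-- weight of a current -/
noncomputable def wJ (J : ι → ℝ) (n : ι → ℤ) : ℝ := ∏ i, wI (J i) (n i)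

lemma wJ_nonneg {J : ι → ℝ} (hJ : ∀ i, 0 ≤ J i) (n : ι → ℤ) : 0 ≤ wJ J n :=
  Finset.prod_nonneg fun i _ => wI_nonneg (hJ i) _

lemma wJ_summable {J : ι → ℝ} (hJ : ∀ i, 0 ≤ J i) : Summable (wJ J) := by
  have h := (prod_tsum_all ℤ ι (fun e n => ((wI (J e) n : ℝ) : ℂ)) fun e => by
    refine (summable_wI (hJ e)).congr fun n => ?_
    rw [Complex.norm_real, Real.norm_eq_abs, abs_of_nonneg (wI_nonneg (hJ e) n)]).1
  refine h.congr fun n => ?_
  rw [← Complex.ofReal_prod, Complex.norm_real, Real.norm_eq_abs]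
  exact abs_of_nonneg (wJ_nonneg hJ n)

lemma wJΦ_summable {J : ι → ℝ} (hJ : ∀ i, 0 ≤ J i) {Φ : (ι → ℤ) → ℝ} {C : ℝ}
    (hΦ : ∀ n, |Φ n| ≤ C) : Summable fun n => |wJ J n * Φ n| := by
  refine Summable.of_nonneg_of_le (fun n => abs_nonneg _) (fun n => ?_)
    ((wJ_summable hJ).mul_right C)
  rw [abs_mul, abs_of_nonneg (wJ_nonneg hJ n)]
  exact mul_le_mul_of_nonneg_left (hΦ n) (wJ_nonneg hJ n)

/-- the modified weight of the spins -/
noncomputable def UU (s t : ι → V) (J : ι → ℝ) (Φ : (ι → ℤ) → ℝ) : C(V → T, ℝ) :=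
  ∑' n : ι → ℤ, ContinuousMap.const (V → T) (wJ J n * Φ n) * cc (chN s t n)

lemma cc_norm (χ : Chr (V → T)) : ‖cc χ‖ ≤ 1 := by
  rw [ContinuousMap.norm_le _ zero_le_one]
  intro x
  have h := χ.norm_sq x
  rw [Real.norm_eq_abs, cc_apply]
  exact abs_le_of_sq_le_sq (by nlinarith [sq_nonneg (χ.s x)]) zero_le_one

lemma UU_hasSum (s t : ι → V) {J : ι → ℝ} (hJ : ∀ i, 0 ≤ J i) {Φ : (ι → ℤ) → ℝ} {C : ℝ}
    (hΦ : ∀ n, |Φ n| ≤ C) :
    HasSum (fun n : ι → ℤ => ContinuousMap.const (V → T) (wJ J n * Φ n) * cc (chN s t n))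
      (UU s t J Φ) := by
  refine Summable.hasSum ?_
  refine Summable.of_norm_bounded (wJΦ_summable hJ hΦ) fun n => ?_
  have h1 : ‖(ContinuousMap.const (V → T) (wJ J n * Φ n) : C(V → T, ℝ))‖ ≤ |wJ J n * Φ n| := by
    rw [ContinuousMap.norm_le _ (abs_nonneg _)]
    intro x
    exact le_of_eq (Real.norm_eq_abs _)
  calc _ ≤ ‖(ContinuousMap.const (V → T) (wJ J n * Φ n) : C(V → T, ℝ))‖ * ‖cc (chN s t n)‖ :=
        norm_mul_le _ _
    _ ≤ |wJ J n * Φ n| * 1 := mul_le_mul h1 (cc_norm _) (norm_nonneg _) (abs_nonneg _)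
    _ = _ := mul_one _

/-- the modified weight is positive definite -/
theorem UU_mem (s t : ι → V) {J : ι → ℝ} (hJ : ∀ i, 0 ≤ J i) {Φ : (ι → ℤ) → ℝ} {C : ℝ}
    (hΦ : ∀ n, |Φ n| ≤ C) (h0 : ∀ n, 0 ≤ Φ n) : UU s t J Φ ∈ (PG (V → T)).cosS := by
  refine (PG (V → T)).cosS_closed.mem_of_tendsto (UU_hasSum s t hJ hΦ)
    (Eventually.of_forall fun F => ?_)
  refine Subsemiring.sum_mem _ fun n _ => ?_
  exact Subsemiring.mul_mem _ (Pos.cosS_const _ _ (mul_nonneg (wJ_nonneg hJ n) (h0 n)))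
    (PG_cos _)

lemma UU_apply_hasSum (s t : ι → V) {J : ι → ℝ} (hJ : ∀ i, 0 ≤ J i) {Φ : (ι → ℤ) → ℝ} {C : ℝ}
    (hΦ : ∀ n, |Φ n| ≤ C) (θ : V → T) :
    HasSum (fun n : ι → ℤ => wJ J n * Φ n * cosT (ph s t n θ)) (UU s t J Φ θ) := by
  have h := (ContinuousMap.evalCLM ℝ θ).hasSum (UU_hasSum s t hJ hΦ)
  exact h

/-- the modified weight depends only on the spins of the bonds -/
lemma UU_dep (s t : ι → V) {J : ι → ℝ} (hJ : ∀ i, 0 ≤ J i) {Φ : (ι → ℤ) → ℝ} {C : ℝ}
    (hΦ : ∀ n, |Φ n| ≤ C) : Dep {v | ∃ i, v = s i ∨ v = t i} (UU s t J Φ) := by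
  intro θ θ' h
  refine (UU_apply_hasSum s t hJ hΦ θ).unique ?_
  have h1 := UU_apply_hasSum s t hJ hΦ θ'
  have e : ∀ n : ι → ℤ, ph s t n θ = ph s t n θ' := by
    intro n
    unfold ph
    refine Finset.sum_congr rfl fun i _ => ?_
    rw [h (s i) ⟨i, Or.inl rfl⟩, h (t i) ⟨i, Or.inr rfl⟩]
  simp_rw [e]
  exact h1

/-- the modified weight is rotation invariant -/
lemma UU_inv (s t : ι → V) {J : ι → ℝ} (hJ : ∀ i, 0 ≤ J i) {Φ : (ι → ℤ) → ℝ} {C : ℝ}
    (hΦ : ∀ n, |Φ n| ≤ C) : Inv (UU s t J Φ) := by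
  intro θ a
  refine (UU_apply_hasSum s t hJ hΦ _).unique ?_
  have h1 := UU_apply_hasSum s t hJ hΦ θ
  have e : ∀ n : ι → ℤ, ph s t n (θ + fun _ => a) = ph s t n θ := by
    intro n
    unfold ph
    refine Finset.sum_congr rfl fun i _ => ?_
    congr 1
    simp only [Pi.add_apply]
    abel
  simp_rw [e]
  exact h1

/-! ### complex form -/

lemma fourier_zero_arg' (n : ℤ) : (fourier n (0 : T) : ℂ) = 1 := fourier_zero_arg n

lemma fourier_ph (s t : ι → V) (n : ι → ℤ) (θ : V → T) :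
    (fourier 1 (ph s t n θ) : ℂ) = ∏ i, (fourier (n i) (θ (s i) - θ (t i)) : ℂ) := by
  have h1 : ∀ (F : Finset ι), (fourier 1 (∑ i ∈ F, n i • (θ (s i) - θ (t i))) : ℂ) =
      ∏ i ∈ F, (fourier (n i) (θ (s i) - θ (t i)) : ℂ) := by
    classical
    intro F
    induction F using Finset.induction_on with
    | empty => simp [fourier_zero_arg']
    | insert i F hi ih =>
      rw [Finset.sum_insert hi, Finset.prod_insert hi, fourier_add_arg, ih]
      congr 1
      rw [fourier_apply, fourier_apply, one_zsmul]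
  exact h1 Finset.univ

lemma cosT_re (x : T) : cosT x = (fourier 1 x : ℂ).re := by
  induction x using QuotientAddGroup.induction_on with
  | H y =>
    have h1 : cosT ((y : ℝ) : T) = Real.cos y := Real.Angle.cos_coe y
    have h2 : (fourier 1 ((y : ℝ) : T) : ℂ) = Complex.exp (y * Complex.I) := by
      rw [fourier_coe_apply]
      congr 1
      have : (Real.pi : ℂ) ≠ 0 := by exact_mod_cast Real.pi_ne_zero
      push_cast
      field_simp
    have h3 : (QuotientAddGroup.mk y : T) = ((y : ℝ) : T) := rfl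
    rw [h3, h1, h2, Complex.exp_ofReal_mul_I_re]

lemma exp_hasSum {b : ℝ} (hb : 0 ≤ b) (x : T) :
    HasSum (fun n : ℤ => (wI b n : ℂ) * (fourier n x : ℂ)) (Complex.exp (b * cosT x)) := by
  have h := hasSum_cosC hb x 0
  simp only [zero_mul, mul_zero, Complex.exp_zero, mul_one] at h
  have e : cosC x 0 = (cosT x : ℂ) := by
    simp [cosC]
  rw [e] at h
  exact h

/-- the complex series -/
lemma UC_hasSum (s t : ι → V) {J : ι → ℝ} (hJ : ∀ i, 0 ≤ J i) {Φ : (ι → ℤ) → ℝ} {C : ℝ}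
    (hΦ : ∀ n, |Φ n| ≤ C) (θ : V → T) :
    Summable fun n : ι → ℤ => ‖((wJ J n * Φ n : ℝ) : ℂ) * (fourier 1 (ph s t n θ) : ℂ)‖ := by
  refine (wJΦ_summable hJ hΦ).congr fun n => ?_
  rw [norm_mul, fourier_norm_one, mul_one, Complex.norm_real, Real.norm_eq_abs]

lemma UU_re (s t : ι → V) {J : ι → ℝ} (hJ : ∀ i, 0 ≤ J i) {Φ : (ι → ℤ) → ℝ} {C : ℝ}
    (hΦ : ∀ n, |Φ n| ≤ C) (θ : V → T) :
    UU s t J Φ θ =
      (∑' n : ι → ℤ, ((wJ J n * Φ n : ℝ) : ℂ) * (fourier 1 (ph s t n θ) : ℂ)).re := by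
  refine (UU_apply_hasSum s t hJ hΦ θ).unique ?_
  have h := Complex.hasSum_re (UC_hasSum s t hJ hΦ θ).of_norm.hasSum
  convert h using 1
  funext n
  rw [Complex.re_ofReal_mul, cosT_re]

/-- the unmodified weight -/
lemma UC_one (s t : ι → V) {J : ι → ℝ} (hJ : ∀ i, 0 ≤ J i) (θ : V → T) :
    ∑' n : ι → ℤ, ((wJ J n : ℝ) : ℂ) * (fourier 1 (ph s t n θ) : ℂ) =
      ((Real.exp (EN J s t θ) : ℝ) : ℂ) := by
  have h := (prod_tsum_all ℤ ι (fun e n => (wI (J e) n : ℂ) *
      (fourier n (θ (s e) - θ (t e)) : ℂ)) fun e => by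
    refine (summable_wI (hJ e)).congr fun n => ?_
    rw [norm_mul, fourier_norm_one, mul_one, Complex.norm_real, Real.norm_eq_abs,
      abs_of_nonneg (wI_nonneg (hJ e) n)]).2
  have e1 : ∀ n : ι → ℤ, ((wJ J n : ℝ) : ℂ) * (fourier 1 (ph s t n θ) : ℂ) =
      ∏ e, ((wI (J e) (n e) : ℂ) * (fourier (n e) (θ (s e) - θ (t e)) : ℂ)) := by
    intro n
    rw [Finset.prod_mul_distrib, fourier_ph, wJ, Complex.ofReal_prod]
  simp_rw [e1]
  rw [h]
  have e2 : ∀ e, ∑' k : ℤ, (wI (J e) k : ℂ) * (fourier k (θ (s e) - θ (t e)) : ℂ) =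
      Complex.exp (J e * cosT (θ (s e) - θ (t e))) := fun e => (exp_hasSum (hJ e) _).tsum_eq
  rw [Finset.prod_congr rfl fun e _ => e2 e, ← Complex.exp_sum, EN_apply]
  push_cast
  rfl

theorem UU_one (s t : ι → V) {J : ι → ℝ} (hJ : ∀ i, 0 ≤ J i) :
    UU s t J (fun _ => 1) = cexp (EN J s t) := by
  ext θ
  rw [UU_re s t hJ (C := 1) (fun n => by simp) θ]
  simp only [mul_one]
  rw [UC_one s t hJ θ, Complex.ofReal_re]
  rfl

/-- **product rule** -/
theorem UU_mul {κ : Type} [Fintype κ] (s t : ι → V) (s' t' : κ → V) {J : ι → ℝ} {K : κ → ℝ}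
    (hJ : ∀ i, 0 ≤ J i) (hK : ∀ i, 0 ≤ K i) {Φ : (ι → ℤ) → ℝ} {C : ℝ} (hΦ : ∀ n, |Φ n| ≤ C) :
    UU (Sum.elim s s') (Sum.elim t t') (Sum.elim J K) (fun n => Φ (n ∘ Sum.inl)) =
      UU s t J Φ * cexp (EN K s' t') := by
  ext θ
  have hJK : ∀ i, 0 ≤ Sum.elim J K i := by
    rintro (i | i)
    · exact hJ i
    · exact hK i
  rw [UU_re _ _ hJK (C := C) (fun n => hΦ _) θ, ContinuousMap.mul_apply, UU_re s t hJ hΦ θ,
    cexp_apply]
  have h1 := UC_hasSum s t hJ hΦ θ
  have h2 : Summable fun n : κ → ℤ => ‖((wJ K n : ℝ) : ℂ) * (fourier 1 (ph s' t' n θ) : ℂ)‖ := by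
    have := UC_hasSum s' t' hK (Φ := fun _ => 1) (C := 1) (fun n => by simp) θ
    simpa using this
  have h3 := tsum_mul_tsum_of_summable_norm h1 h2
  rw [UC_one s' t' hK θ] at h3
  have h4 : ∑' n : ι ⊕ κ → ℤ, ((wJ (Sum.elim J K) n * Φ (n ∘ Sum.inl) : ℝ) : ℂ) *
      (fourier 1 (ph (Sum.elim s s') (Sum.elim t t') n θ) : ℂ) =
      ∑' z : (ι → ℤ) × (κ → ℤ), ((wJ J z.1 * Φ z.1 : ℝ) : ℂ) * (fourier 1 (ph s t z.1 θ) : ℂ) *
        (((wJ K z.2 : ℝ) : ℂ) * (fourier 1 (ph s' t' z.2 θ) : ℂ)) := by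
    rw [← (Equiv.sumArrowEquivProdArrow ι κ ℤ).tsum_eq]
    refine tsum_congr fun n => ?_
    have e1 : wJ (Sum.elim J K) n = wJ J (n ∘ Sum.inl) * wJ K (n ∘ Sum.inr) := by
      unfold wJ
      rw [Fintype.prod_sum_type]
      rfl
    have e2 : ph (Sum.elim s s') (Sum.elim t t') n θ =
        ph s t (n ∘ Sum.inl) θ + ph s' t' (n ∘ Sum.inr) θ := by
      unfold ph
      rw [Fintype.sum_sum_type]
      rfl
    show _ = ((wJ J (n ∘ Sum.inl) * Φ (n ∘ Sum.inl) : ℝ) : ℂ) *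
      (fourier 1 (ph s t (n ∘ Sum.inl) θ) : ℂ) *
        (((wJ K (n ∘ Sum.inr) : ℝ) : ℂ) * (fourier 1 (ph s' t' (n ∘ Sum.inr) θ) : ℂ))
    rw [e1, e2, fourier_add_arg]
    push_cast
    ring
  rw [h4, ← h3, Complex.re_mul_ofReal]

/-! ### integrals -/

/-- divergence of a current -/
def dvg (s t : ι → V) (n : ι → ℤ) (v : V) : ℤ :=
  ∑ i, ((if s i = v then n i else 0) - (if t i = v then n i else 0))

lemma fourier_ph_prod (s t : ι → V) (n : ι → ℤ) (θ : V → T) :
    (fourier 1 (ph s t n θ) : ℂ) = ∏ v, (fourier (dvg s t n v) (θ v) : ℂ) := by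
  have h0 : ∀ (x : V) (k : ℤ), (fourier k (θ x) : ℂ) =
      ∏ v, (fourier (if x = v then k else 0) (θ v) : ℂ) := by
    intro x k
    rw [Finset.prod_eq_single x]
    · simp
    · intro v _ hv
      rw [if_neg (Ne.symm hv)]
      simp
    · intro h
      exact absurd (Finset.mem_univ _) h
  have h1 : ∀ i, (fourier (n i) (θ (s i) - θ (t i)) : ℂ) =
      ∏ v, (fourier ((if s i = v then n i else 0) - (if t i = v then n i else 0)) (θ v) : ℂ) := by
    intro i
    rw [sub_eq_add_neg, fourier_add_arg, fourier_neg_arg, h0 (s i), h0 (t i),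
      ← Finset.prod_mul_distrib]
    refine Finset.prod_congr rfl fun v _ => ?_
    have e : (if t i = v then -n i else 0) = -(if t i = v then n i else 0) := by
      split_ifs <;> simp
    rw [sub_eq_add_neg, fourier_add, e]
  rw [fourier_ph]
  simp only [h1]
  rw [Finset.prod_comm]
  refine Finset.prod_congr rfl fun v _ => ?_
  rw [fourier_sum_ix]
  rfl

lemma int_ph (s t : ι → V) (n : ι → ℤ) (S : Set V) [DecidablePred (· ∈ S)] :
    ∫ θ, cosT (ph s t n (pin S 0 θ)) ∂(torusHaar V) =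
      if ∀ v, v ∉ S → dvg s t n v = 0 then 1 else 0 := by
  have h1 : ∀ θ : V → T, (fourier 1 (ph s t n (pin S 0 θ)) : ℂ) =
      ∏ v, (fourier (if v ∈ S then 0 else dvg s t n v) (θ v) : ℂ) := by
    intro θ
    rw [fourier_ph_prod]
    refine Finset.prod_congr rfl fun v _ => ?_
    by_cases h : v ∈ S
    · rw [pin_mem h, if_pos h]
      simp [fourier_zero_arg']
    · rw [pin_notMem h, if_neg h]
  have h2 := Vale.Agent.P159.T1.H857.integral_prod_fourierA
    (fun v : V => if v ∈ S then 0 else dvg s t n v)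
  have hc : Continuous fun θ : V → T => (fourier 1 (ph s t n (pin S 0 θ)) : ℂ) :=
    (fourier 1).continuous.comp ((ph_cont s t n).comp (pin_cont S 0))
  have h3 : ∫ θ, cosT (ph s t n (pin S 0 θ)) ∂(torusHaar V) =
      (∫ θ, (fourier 1 (ph s t n (pin S 0 θ)) : ℂ) ∂(torusHaar V)).re := by
    have hi : Integrable (fun θ : V → T => (fourier 1 (ph s t n (pin S 0 θ)) : ℂ))
        (torusHaar V) :=
      hc.integrable_of_hasCompactSupport (HasCompactSupport.of_compactSpace _)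
    have := integral_re (𝕜 := ℂ) hi
    rw [← RCLike.re_eq_complex_re, ← this]
    refine integral_congr_ae (Eventually.of_forall fun θ => ?_)
    exact cosT_re _
  rw [h3]
  simp_rw [h1]
  rw [h2]
  have e : (∀ v, (if v ∈ S then (0 : ℤ) else dvg s t n v) = 0) ↔
      ∀ v, v ∉ S → dvg s t n v = 0 := by
    constructor
    · intro h v hv
      have := h v
      rwa [if_neg hv] at this
    · intro h v
      by_cases hv : v ∈ S
      · rw [if_pos hv]
      · rw [if_neg hv]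
        exact h v hv
  by_cases h : ∀ v, v ∉ S → dvg s t n v = 0
  · rw [if_pos (e.2 h), if_pos h]
    simp
  · rw [if_neg (fun h' => h (e.1 h')), if_neg h]
    simp

/-- **the integral of the modified weight** is the sum over the currents without divergence
off the pinned set -/
theorem UU_int (s t : ι → V) {J : ι → ℝ} (hJ : ∀ i, 0 ≤ J i) {Φ : (ι → ℤ) → ℝ} {C : ℝ}
    (hΦ : ∀ n, |Φ n| ≤ C) (S : Set V) [DecidablePred (· ∈ S)] :
    HasSum (fun n : ι → ℤ => if ∀ v, v ∉ S → dvg s t n v = 0 then wJ J n * Φ n else 0)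
      (∫ θ, UU s t J Φ (pin S 0 θ) ∂(torusHaar V)) := by
  have hcont : Continuous fun f : C(V → T, ℝ) => ∫ θ, f (pin S 0 θ) ∂(torusHaar V) := by
    have h1 : Continuous fun f : C(V → T, ℝ) =>
        f.comp (⟨pin S 0, pin_cont S 0⟩ : C(V → T, V → T)) :=
      ContinuousMap.continuous_precomp _
    exact (continuous_int (torusHaar V)).comp h1
  set L : C(V → T, ℝ) →+ ℝ :=
    { toFun := fun f => ∫ θ, f (pin S 0 θ) ∂(torusHaar V)
      map_zero' := by simp
      map_add' := by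
        intro f g
        have e : ∀ θ, (f + g) (pin S 0 θ) = f (pin S 0 θ) + g (pin S 0 θ) := fun θ => rfl
        simp_rw [e]
        exact integral_add (cint (f.continuous.comp (pin_cont S 0)))
          (cint (g.continuous.comp (pin_cont S 0))) } with hL
  have h := (UU_hasSum s t hJ hΦ).map L hcont
  have e : ∀ n : ι → ℤ, (L ∘ fun n : ι → ℤ =>
      ContinuousMap.const (V → T) (wJ J n * Φ n) * cc (chN s t n)) n =
      if ∀ v, v ∉ S → dvg s t n v = 0 then wJ J n * Φ n else 0 := by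
    intro n
    show ∫ θ, (wJ J n * Φ n) * cosT (ph s t n (pin S 0 θ)) ∂(torusHaar V) = _
    rw [integral_const_mul, int_ph s t n S]
    split_ifs <;> simp
  rw [funext e] at h
  exact h

end Vale.Agent.P159.TM.H331
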