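import Vale.Agent.P159.TM.H331.Wired
import Vale.Agent.P159.TM.H389.Rm

/-!
Row ISAND: comparison of the laws of the heights inside a sub-square under zero and under free
boundary conditions of the surrounding box: for every bounded `Φ ≥ 0` of the height differences
inside the sub-square, `E^0[Φ] ≤ K * E^w[Φ]`, with the constant `K` of the annulus.
-/

open MeasureTheory Filter Topology
open scoped BigOperators

set_option linter.all false

namespace Vale.Agent.P159.TM.H331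

open Vale.Agent.P159 Vale.Agent.P159.H353 Vale.Agent.P159.T1.H42 Vale.Agent.P159.TM.H389
open Vale.Agent.P159.R2.H254

/-- the sites of the square `[p, p+r] × [q, q+r]` -/
def sqS (N p q r : ℕ) : Set (St N) :=
  {v | (p ≤ v.1.1 ∧ v.1.1 ≤ p + r) ∧ (q ≤ v.2.1 ∧ v.2.1 ≤ q + r)}

/-- the weight of the annulus -/
noncomputable def ann (N : ℕ) (b : ℝ) (p q r : ℕ) : C(St N → T, ℝ) :=
  cexp (EN (fun _ : {e : Bd N // ¬ inP p q r e} => b) (fun e => bs e.1) (fun e => bt e.1))

/-- the gradient of the heights inside the sub-square -/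
def gP {N : ℕ} (p q r : ℕ) (h : Fa N → ℤ) (e : {e : Bd N // inP p q r e}) : ℤ := fcur h e.1

/-- the modified weight of the sub-square -/
noncomputable def UP (N : ℕ) (b : ℝ) (p q r : ℕ) (Φ : ({e : Bd N // inP p q r e} → ℤ) → ℝ) :
    C(St N → T, ℝ) :=
  UU (fun e : {e : Bd N // inP p q r e} => bs e.1) (fun e => bt e.1) (fun _ => b) Φ

variable {N p q r : ℕ} {b : ℝ}

/-- restriction of currents -/
def rs {N : ℕ} (p q r : ℕ) (n : Bd N → ℤ) (e : {e : Bd N // inP p q r e}) : ℤ := n e.1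

lemma UU_Bd (hb : 0 ≤ b) {Φ : ({e : Bd N // inP p q r e} → ℤ) → ℝ} {C : ℝ}
    (hΦ : ∀ n, |Φ n| ≤ C) :
    UU (bs (N := N)) bt (fun _ => b) (fun n => Φ (rs p q r n)) = UP N b p q r Φ * ann N b p q r :=
  UU_split (inP p q r) bs bt (J := fun _ => b) (fun _ => hb) hΦ

lemma inP_inI (hp : p + r ≤ N + 1) (hq : q + r ≤ N + 1) {e : Bd N} (h : inP p q r e) :
    inI e := by
  rcases e with e | e
  · simp only [inP] at h
    simp only [inI]
    omega
  · simp only [inP] at h
    simp only [inI]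
    omega

/-- extension of the function to the inner bonds -/
def exI (hp : p + r ≤ N + 1) (hq : q + r ≤ N + 1) (Φ : ({e : Bd N // inP p q r e} → ℤ) → ℝ)
    (n : {e : Bd N // inI e} → ℤ) : ℝ :=
  Φ fun e => n ⟨e.1, inP_inI hp hq e.2⟩

/-- value at pinned boundary -/
lemma pinned (hb : 0 ≤ b) (hp : p + r ≤ N + 1) (hq : q + r ≤ N + 1)
    {Φ : ({e : Bd N // inP p q r e} → ℤ) → ℝ} {C : ℝ} (hΦ : ∀ n, |Φ n| ≤ C) (θ : St N → T) :
    UP N b p q r Φ (pin (ringS N) 0 θ) * ann N b p q r (pin (ringS N) 0 θ) =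
      UU (fun e : {e : Bd N // inI e} => bs e.1) (fun e => bt e.1) (fun _ => b) (exI hp hq Φ)
        (pin (ringS N) 0 θ) *
        Real.exp (∑ _e : {e : Bd N // ¬ inI e}, b) := by
  have h1 := UU_Bd (N := N) (p := p) (q := q) (r := r) hb hΦ
  have h2 := UU_split (inI (N := N)) bs bt (J := fun _ => b) (fun _ => hb)
    (Φ := exI hp hq Φ) (C := C) (fun n => hΦ _)
  have h3 : UP N b p q r Φ * ann N b p q r =
      UU (fun e : {e : Bd N // inI e} => bs e.1) (fun e => bt e.1) (fun _ => b) (exI hp hq Φ) *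
        cexp (EN (fun _ : {e : Bd N // ¬ inI e} => b) (fun e => bs e.1) (fun e => bt e.1)) := by
    rw [← h1]
    exact h2
  have h4 := congrArg (fun f : C(St N → T, ℝ) => f (pin (ringS N) 0 θ)) h3
  simp only [ContinuousMap.mul_apply, cexp_apply] at h4
  rw [h4]
  congr 2
  rw [EN_apply]
  refine Finset.sum_congr rfl fun e _ => ?_
  have hs : bs e.1 ∈ ringS N ∧ bt e.1 ∈ ringS N := by
    obtain ⟨e, he⟩ := e
    rcases e with ⟨⟨i, hi⟩, ⟨j, hj⟩⟩ | ⟨⟨i, hi⟩, ⟨j, hj⟩⟩
    · simp only [inI] at he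
      simp only [bs, bt, ringS, Set.mem_setOf_eq]
      omega
    · simp only [inI] at he
      simp only [bs, bt, ringS, Set.mem_setOf_eq]
      omega
  rw [pin_mem hs.1, pin_mem hs.2, Pi.zero_apply, Pi.zero_apply, sub_self, cosT_zero, mul_one]

/-- the wired side -/
lemma wired_eq (hb : 0 ≤ b) (hp : p + r ≤ N + 1) (hq : q + r ≤ N + 1)
    {Φ : ({e : Bd N // inP p q r e} → ℤ) → ℝ} {C : ℝ} (hΦ : ∀ n, |Φ n| ≤ C) :
    HasSum (fun h : Hgt N => Real.exp (∑ _e : {e : Bd N // ¬ inI e}, b) *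
        (hWt N b h.1 * Φ (gP p q r h.1)))
      (∫ θ, UP N b p q r Φ (pin (ringS N) 0 θ) * ann N b p q r (pin (ringS N) 0 θ)
        ∂(torusHaar (St N))) := by
  have h := (wired_sum (N := N) hb (Φ := exI hp hq Φ) (C := C) (fun n => hΦ _)).mul_left
    (Real.exp (∑ _e : {e : Bd N // ¬ inI e}, b))
  have e1 : ∫ θ, UP N b p q r Φ (pin (ringS N) 0 θ) * ann N b p q r (pin (ringS N) 0 θ)
        ∂(torusHaar (St N)) = Real.exp (∑ _e : {e : Bd N // ¬ inI e}, b) *
      ∫ θ, UU (fun e : {e : Bd N // inI e} => bs e.1) (fun e => bt e.1) (fun _ => b)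
        (exI hp hq Φ) (pin (ringS N) 0 θ) ∂(torusHaar (St N)) := by
    rw [← integral_const_mul]
    refine integral_congr_ae (Eventually.of_forall fun θ => ?_)
    show UP N b p q r Φ (pin (ringS N) 0 θ) * ann N b p q r (pin (ringS N) 0 θ) = _
    rw [pinned hb hp hq hΦ θ]
    ring
  rw [e1]
  exact h

/-- the free side -/
lemma free_eq (d1 : D2f_div) (d2 : D2f_inj) (d3 : D2f_surj) (hb : 0 ≤ b)
    {Φ : ({e : Bd N // inP p q r e} → ℤ) → ℝ} {C : ℝ} (hΦ : ∀ n, |Φ n| ≤ C) :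
    HasSum (fun h : Fa N → ℤ => W0 N b h * Φ (gP p q r h))
      (∫ θ, UP N b p q r Φ θ * ann N b p q r θ ∂(torusHaar (St N))) := by
  classical
  have h := UU_int (bs (N := N)) bt (J := fun _ => b) (fun _ => hb)
    (Φ := fun n => Φ (rs p q r n)) (C := C) (fun n => hΦ _) (∅ : Set (St N))
  have h2 := ((d2 N).hasSum_iff (f := fun n : Bd N → ℤ =>
      if ∀ v, v ∉ (∅ : Set (St N)) → dvg bs bt n v = 0
        then wJ (fun _ => b) n * Φ (rs p q r n) else 0) ?_).2 h
  · have e : ((fun n : Bd N → ℤ => if ∀ v, v ∉ (∅ : Set (St N)) → dvg bs bt n v = 0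
        then wJ (fun _ => b) n * Φ (rs p q r n) else 0) ∘ fcur) =
        fun h : Fa N → ℤ => W0 N b h * Φ (gP p q r h) := by
      funext k
      simp only [Function.comp]
      rw [if_pos fun v _ => d1 N k v]
      rfl
    rw [e] at h2
    have e2 : ∫ θ, UU (bs (N := N)) bt (fun _ => b) (fun n => Φ (rs p q r n)) (pin ∅ 0 θ)
        ∂(torusHaar (St N)) =
        ∫ θ, UP N b p q r Φ θ * ann N b p q r θ ∂(torusHaar (St N)) := by
      refine integral_congr_ae (Eventually.of_forall fun θ => ?_)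
      show UU (bs (N := N)) bt (fun _ => b) (fun n => Φ (rs p q r n)) (pin ∅ 0 θ) = _
      rw [pin_empty, UU_Bd hb hΦ]
      rfl
    rw [e2] at h2
    exact h2
  · intro n hn
    rw [if_neg]
    intro hw
    obtain ⟨k, hk⟩ := d3 N n fun v => hw v (Set.notMem_empty v)
    exact hn ⟨k, hk⟩

/-- **ISAND** -/
theorem isand' (d1 : D2f_div) (d2 : D2f_inj) (d3 : D2f_surj) (hb : 0 ≤ b) (hr : 1 ≤ r)
    (hp1 : 1 ≤ p) (hp : p + r ≤ N) (hq1 : 1 ≤ q) (hq : q + r ≤ N) {o o' : St N}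
    (ho : o ∈ sqS N p q r) (ho' : o' ∈ ringS N) {K : ℝ}
    (hK : Zww (ann N b p q r) (sqS N p q r) o (ringS N) o' *
        ∫ θ, ann N b p q r θ ∂(torusHaar (St N)) ≤
      K * ((∫ θ, ann N b p q r (pin (sqS N p q r) 0 θ) ∂(torusHaar (St N))) *
        ∫ θ, ann N b p q r (pin (ringS N) 0 θ) ∂(torusHaar (St N))))
    {Φ : ({e : Bd N // inP p q r e} → ℤ) → ℝ} {C : ℝ} (hΦ : ∀ n, |Φ n| ≤ C)
    (h0 : ∀ n, 0 ≤ Φ n) :
    (∑' h : Fa N → ℤ, W0 N b h * Φ (gP p q r h)) * (∑' h : Hgt N, hWt N b h.1) ≤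
      K * ((∑' h : Fa N → ℤ, W0 N b h) * ∑' h : Hgt N, hWt N b h.1 * Φ (gP p q r h.1)) := by
  classical
  have hc1 : ∀ n : {e : Bd N // inP p q r e} → ℤ, |(fun _ => (1 : ℝ)) n| ≤ (1 : ℝ) := by
    intro n; simp
  -- the weights
  have hB : UP N b p q r (fun _ => 1) =
      cexp (EN (fun _ : {e : Bd N // inP p q r e} => b) (fun e => bs e.1) (fun e => bt e.1)) :=
    UU_one _ _ fun _ => hb
  have ha : Fer (ann N b p q r) := Fer.EN (fun _ => hb) _ _
  have hBF : Fer (UP N b p q r (fun _ => 1)) := by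
    rw [hB]
    exact Fer.EN (fun _ => hb) _ _
  have hBP : Dep (sqS N p q r) (UP N b p q r (fun _ => 1)) := by
    have h := UU_dep (fun e : {e : Bd N // inP p q r e} => bs e.1) (fun e => bt e.1)
      (J := fun _ => b) (fun _ => hb) (Φ := fun _ => 1) (C := 1) hc1
    intro θ θ' h1
    refine h θ θ' fun v hv => h1 v ?_
    obtain ⟨⟨e, he⟩, hv⟩ := hv
    rcases e with ⟨⟨i, hi⟩, ⟨j, hj⟩⟩ | ⟨⟨i, hi⟩, ⟨j, hj⟩⟩
    · simp only [inP] at he
      rcases hv with hv | hv
      · rw [hv]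
        simp only [bs, sqS, Set.mem_setOf_eq, Fin.val_castSucc]
        omega
      · rw [hv]
        simp only [bt, sqS, Set.mem_setOf_eq, Fin.val_succ]
        omega
    · simp only [inP] at he
      rcases hv with hv | hv
      · rw [hv]
        simp only [bs, sqS, Set.mem_setOf_eq, Fin.val_castSucc]
        omega
      · rw [hv]
        simp only [bt, sqS, Set.mem_setOf_eq, Fin.val_succ]
        omega
  have hd : Disjoint (sqS N p q r) (ringS N) := by
    rw [Set.disjoint_left]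
    intro v h1 h2
    simp only [sqS, ringS, Set.mem_setOf_eq] at h1 h2
    omega
  have hU := UU_mem (fun e : {e : Bd N // inP p q r e} => bs e.1) (fun e => bt e.1)
    (J := fun _ => b) (fun _ => hb) hΦ h0
  have hM : Dep Set.univ (ann N b p q r) := by
    intro θ θ' h
    have : θ = θ' := funext fun v => h v (Set.mem_univ v)
    rw [this]
  have hs := sandU (a := ann N b p q r) (B := UP N b p q r (fun _ => 1))
    (U := UP N b p q r Φ) ha hBF hM hBP (S := sqS N p q r) (S' := ringS N)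
    Set.inter_subset_left hd hd ho ho' hU
  -- translation to heights
  have f1 := (free_eq (p := p) (q := q) (r := r) d1 d2 d3 hb hΦ).tsum_eq
  have f2 := (free_eq (p := p) (q := q) (r := r) d1 d2 d3 hb hc1).tsum_eq
  have w1 := (wired_eq (p := p) (q := q) (r := r) hb (by omega) (by omega) hΦ).tsum_eq
  have w2 := (wired_eq (p := p) (q := q) (r := r) hb (by omega) (by omega) hc1).tsum_eq
  simp only [mul_one] at f2 w2
  rw [tsum_mul_left] at w1 w2
  rw [← f1, ← f2, ← w1, ← w2] at hs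
  set cE := Real.exp (∑ _e : {e : Bd N // ¬ inI e}, b) with hcE
  have hcpos : 0 < cE := Real.exp_pos _
  set A1 := ∑' h : Fa N → ℤ, W0 N b h * Φ (gP p q r h) with hA1
  set A0 := ∑' h : Fa N → ℤ, W0 N b h with hA0
  set B1 := ∑' h : Hgt N, hWt N b h.1 * Φ (gP p q r h.1) with hB1
  set B0 := ∑' h : Hgt N, hWt N b h.1 with hB0
  set zwf := ∫ θ, ann N b p q r (pin (sqS N p q r) 0 θ) ∂(torusHaar (St N)) with hzwf
  set zfw := ∫ θ, ann N b p q r (pin (ringS N) 0 θ) ∂(torusHaar (St N)) with hzfw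
  have pos : ∀ S : Set (St N), 0 < ∫ θ, ann N b p q r (pin S 0 θ) ∂(torusHaar (St N)) := by
    intro S
    refine Continuous.integral_pos_of_hasCompactSupport_nonneg_nonzero
      ((ann N b p q r).continuous.comp (pin_cont S 0)) (HasCompactSupport.of_compactSpace _)
      (fun θ => (Real.exp_pos _).le) (x := 0) (Real.exp_pos _).ne'
  have p1 : 0 < zwf := pos _
  have p2 : 0 < zfw := pos _
  have hA0n : 0 ≤ A0 := tsum_nonneg fun h => Finset.prod_nonneg fun e _ => wI_nonneg hb _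
  have hB1n : 0 ≤ B1 := tsum_nonneg fun h => mul_nonneg (by
    rw [hWt_eq hb]
    exact Finset.prod_nonneg fun e _ => wI_nonneg hb _) (h0 _)
  have key : (cE * (zwf * zfw)) * (A1 * B0) ≤ (cE * (zwf * zfw)) * (K * (A0 * B1)) := by
    calc (cE * (zwf * zfw)) * (A1 * B0) = A1 * (cE * B0) * (zwf * zfw) := by ring
      _ ≤ _ := hs
      _ ≤ (K * (zwf * zfw)) * (A0 * (cE * B1)) :=
          mul_le_mul_of_nonneg_right hK (mul_nonneg hA0n (mul_nonneg hcpos.le hB1n))
      _ = _ := by ring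
  exact le_of_mul_le_mul_left key (mul_pos hcpos (mul_pos p1 p2))

end Vale.Agent.P159.TM.H331
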