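import Vale.Agent.P159.TM.H331.Dict

/-!
Row ISAND: the modified weight under a relabelling of the bonds, and the product rule for a
predicate on the bonds.
-/

open MeasureTheory Filter Topology
open scoped BigOperators

set_option linter.all false

namespace Vale.Agent.P159.TM.H331

open Vale.Agent.P159 Vale.Agent.P159.H353 Vale.Agent.P159.T1.H42 Vale.Agent.P159.TM.H389

variable {V ι : Type} [Fintype V] [DecidableEq V] [Fintype ι]

omit [DecidableEq V] [Fintype V] in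
lemma ph_equiv {κ : Type} [Fintype κ] (σ : κ ≃ ι) (s t : ι → V) (n : ι → ℤ) (θ : V → T) :
    ph (s ∘ σ) (t ∘ σ) (n ∘ σ) θ = ph s t n θ := by
  unfold ph
  exact σ.sum_comp (fun i => n i • (θ (s i) - θ (t i)))

lemma wJ_equiv {κ : Type} [Fintype κ] (σ : κ ≃ ι) (J : ι → ℝ) (n : ι → ℤ) :
    wJ (J ∘ σ) (n ∘ σ) = wJ J n := by
  unfold wJ
  exact σ.prod_comp (fun i => wI (J i) (n i))

theorem UU_equiv {κ : Type} [Fintype κ] (σ : κ ≃ ι) (s t : ι → V) {J : ι → ℝ}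
    (hJ : ∀ i, 0 ≤ J i) {Φ : (κ → ℤ) → ℝ} {C : ℝ} (hΦ : ∀ n, |Φ n| ≤ C) :
    UU (s ∘ σ) (t ∘ σ) (J ∘ σ) Φ = UU s t J (fun n => Φ (n ∘ σ)) := by
  ext θ
  have h1 := UU_apply_hasSum (s ∘ σ) (t ∘ σ) (J := J ∘ σ) (fun i => hJ _) hΦ θ
  have h2 := UU_apply_hasSum s t hJ (Φ := fun n => Φ (n ∘ σ)) (C := C) (fun n => hΦ _) θ
  have h3 := (Equiv.arrowCongr σ.symm (Equiv.refl ℤ)).hasSum_iff.2 h1
  refine h3.unique ?_
  have e : ((fun n : κ → ℤ => wJ (J ∘ σ) n * Φ n * cosT (ph (s ∘ σ) (t ∘ σ) n θ)) ∘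
      (Equiv.arrowCongr σ.symm (Equiv.refl ℤ))) =
      fun n : ι → ℤ => wJ J n * Φ (n ∘ σ) * cosT (ph s t n θ) := by
    funext n
    show wJ (J ∘ σ) (n ∘ σ) * Φ (n ∘ σ) * cosT (ph (s ∘ σ) (t ∘ σ) (n ∘ σ) θ) = _
    rw [wJ_equiv, ph_equiv]
  rw [e]
  exact h2

/-- **product rule for a predicate** -/
theorem UU_split (p : ι → Prop) [DecidablePred p] (s t : ι → V) {J : ι → ℝ}
    (hJ : ∀ i, 0 ≤ J i) {Φ : ({i // p i} → ℤ) → ℝ} {C : ℝ} (hΦ : ∀ n, |Φ n| ≤ C) :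
    UU s t J (fun n => Φ (fun i => n i.1)) =
      UU (fun i : {i // p i} => s i.1) (fun i => t i.1) (fun i => J i.1) Φ *
        cexp (EN (fun i : {i // ¬ p i} => J i.1) (fun i => s i.1) (fun i => t i.1)) := by
  rw [← UU_mul (fun i : {i // p i} => s i.1) (fun i => t i.1)
    (fun i : {i // ¬ p i} => s i.1) (fun i => t i.1) (fun i => hJ _) (fun i => hJ _) hΦ]
  have h := UU_equiv (Equiv.sumCompl p) s t hJ
    (Φ := fun n : {i // p i} ⊕ {i // ¬ p i} → ℤ => Φ (n ∘ Sum.inl)) (C := C) (fun n => hΦ _)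
  have e1 : ∀ {β : Type} (f : ι → β), f ∘ (Equiv.sumCompl p) =
      Sum.elim (fun i : {i // p i} => f i.1) (fun i : {i // ¬ p i} => f i.1) := by
    intro β f
    funext i
    rcases i with i | i <;> rfl
  rw [e1 s, e1 t, e1 J] at h
  rw [h]
  rfl

end Vale.Agent.P159.TM.H331
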