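import Vale.Agent.P159.TM.H331.Box
import Vale.Agent.P159.TM.H331.Split

/-!
Row ISAND (D2w): the currents on the inner bonds of the box without divergence at the inner sites
are the gradients of the heights `Hgt N`.
-/

open MeasureTheory Filter Topology
open scoped BigOperators

set_option linter.all false

namespace Vale.Agent.P159.TM.H331

open Vale.Agent.P159 Vale.Agent.P159.H353 Vale.Agent.P159.T1.H42 Vale.Agent.P159.TM.H389
open Vale.Agent.P159.R2.H254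

/-- the bonds between two faces of the box -/
def inI {N : ℕ} : Bd N → Prop
  | Sum.inl e => 0 < e.2.1 ∧ e.2.1 < N + 1
  | Sum.inr e => 0 < e.1.1 ∧ e.1.1 < N + 1

instance {N : ℕ} : DecidablePred (inI (N := N)) := fun e => by
  cases e <;> (simp only [inI]; infer_instance)

/-- the bonds of GaussianLimit are the inner bonds -/
def ib {N : ℕ} : Eb N ≃ {e : Bd N // inI e} where
  toFun
    | Sum.inl p => ⟨Sum.inr (⟨p.1.1 + 1, by omega⟩, ⟨p.2.1, by omega⟩), by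
        simp only [inI]; omega⟩
    | Sum.inr p => ⟨Sum.inl (⟨p.1.1, by omega⟩, ⟨p.2.1 + 1, by omega⟩), by
        simp only [inI]; omega⟩
  invFun
    | ⟨Sum.inl e, h⟩ => Sum.inr (⟨e.1.1, by omega⟩, ⟨e.2.1 - 1, by
        simp only [inI] at h; omega⟩)
    | ⟨Sum.inr e, h⟩ => Sum.inl (⟨e.1.1 - 1, by simp only [inI] at h; omega⟩, ⟨e.2.1, by omega⟩)
  left_inv := by
    rintro (⟨⟨i, hi⟩, ⟨j, hj⟩⟩ | ⟨⟨i, hi⟩, ⟨j, hj⟩⟩) <;> simp
  right_inv := by
    rintro ⟨(⟨⟨i, hi⟩, ⟨j, hj⟩⟩ | ⟨⟨i, hi⟩, ⟨j, hj⟩⟩), h⟩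
    · simp only [inI] at h
      ext
      simp only [Sum.inl.injEq, Prod.mk.injEq, Fin.mk.injEq, true_and]
      omega
    · simp only [inI] at h
      ext
      simp only [Sum.inr.injEq, Prod.mk.injEq, Fin.mk.injEq, and_true]
      omega

lemma he_in {N : ℕ} (h : Fa N → ℤ) (i j : ℕ) (hi : i < N + 1) (hj : j < N + 1) :
    he h (i + 1) (j + 1) = h (⟨i, hi⟩, ⟨j, hj⟩) := by
  unfold he
  rw [dif_pos (by omega)]
  rfl

lemma fcur_ib {N : ℕ} (h : Fa N → ℤ) (e : Eb N) : fcur h (ib e).1 = bcur h e := by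
  rcases e with ⟨⟨i, hi⟩, ⟨j, hj⟩⟩ | ⟨⟨i, hi⟩, ⟨j, hj⟩⟩
  · show he h (i + 1) (j + 1) - he h (i + 1 + 1) (j + 1) = _
    rw [he_in h i j (by omega) (by omega), he_in h (i + 1) j (by omega) (by omega)]
    rfl
  · show he h (i + 1) (j + 1 + 1) - he h (i + 1) (j + 1) = _
    rw [he_in h i j (by omega) (by omega), he_in h i (j + 1) (by omega) (by omega)]
    rfl

lemma bst_iff {N : ℕ} (e : Eb N) (v : St N) :
    bst e = (((v.1.1 : ℕ) : ℤ), ((v.2.1 : ℕ) : ℤ)) ↔ bs (ib e).1 = v := by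
  obtain ⟨⟨x, hx⟩, ⟨y, hy⟩⟩ := v
  rcases e with ⟨⟨i, hi⟩, ⟨j, hj⟩⟩ | ⟨⟨i, hi⟩, ⟨j, hj⟩⟩
  · simp only [bst, ib, bs, Equiv.coe_fn_mk, Prod.mk.injEq, Fin.ext_iff, Fin.val_castSucc]
    omega
  · simp only [bst, ib, bs, Equiv.coe_fn_mk, Prod.mk.injEq, Fin.ext_iff, Fin.val_castSucc]
    omega

lemma ben_iff {N : ℕ} (e : Eb N) (v : St N) :
    ben e = (((v.1.1 : ℕ) : ℤ), ((v.2.1 : ℕ) : ℤ)) ↔ bt (ib e).1 = v := by
  obtain ⟨⟨x, hx⟩, ⟨y, hy⟩⟩ := v
  rcases e with ⟨⟨i, hi⟩, ⟨j, hj⟩⟩ | ⟨⟨i, hi⟩, ⟨j, hj⟩⟩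
  · simp only [ben, ib, bt, Equiv.coe_fn_mk, Prod.mk.injEq, Fin.ext_iff, Fin.val_succ]
    omega
  · simp only [ben, ib, bt, Equiv.coe_fn_mk, Prod.mk.injEq, Fin.ext_iff, Fin.val_succ]
    omega

/-- the two divergences -/
lemma dvg_ib {N : ℕ} (n : {e : Bd N // inI e} → ℤ) (v : St N) :
    dvg (fun e : {e : Bd N // inI e} => bs e.1) (fun e => bt e.1) n v =
      bdv (fun e => n (ib e)) (((v.1.1 : ℕ) : ℤ), ((v.2.1 : ℕ) : ℤ)) := by
  unfold dvg bdv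
  rw [← ib.sum_comp]
  refine Finset.sum_congr rfl fun e _ => ?_
  simp only [bst_iff, ben_iff]
  by_cases h : bt (ib e).1 = v
  · rw [if_pos h, if_pos h, sub_eq_add_neg]
  · rw [if_neg h, if_neg h, sub_zero, add_zero]

lemma ringS_iff {N : ℕ} (v : St N) : v ∉ ringS N ↔
    (((v.1.1 : ℕ) : ℤ), ((v.2.1 : ℕ) : ℤ)) ∈ inner (N + 1) := by
  obtain ⟨⟨x, hx⟩, ⟨y, hy⟩⟩ := v
  unfold inner ringS
  rw [Finset.mem_Icc, Prod.le_def, Prod.le_def]
  simp only [Set.mem_setOf_eq, not_or]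
  push_cast
  omega

lemma ringS_of_inner {N : ℕ} (w : inner (N + 1)) : ∃ v : St N, v ∉ ringS N ∧
    (((v.1.1 : ℕ) : ℤ), ((v.2.1 : ℕ) : ℤ)) = w.1 := by
  obtain ⟨⟨x, y⟩, hw⟩ := w
  have h := hw
  unfold inner at h
  rw [Finset.mem_Icc, Prod.le_def, Prod.le_def] at h
  simp only at h
  push_cast at h
  refine ⟨(⟨x.toNat, by omega⟩, ⟨y.toNat, by omega⟩), ?_, ?_⟩
  · rw [ringS_iff]
    simp only
    have e1 : ((x.toNat : ℕ) : ℤ) = x := by omega
    have e2 : ((y.toNat : ℕ) : ℤ) = y := by omega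
    rw [e1, e2]
    exact hw
  · simp only
    ext
    · simp only; omega
    · simp only; omega

/-- gradient of the heights on the inner bonds -/
def gI' {N : ℕ} (h : Fa N → ℤ) (e : {e : Bd N // inI e}) : ℤ := fcur h e.1

lemma gI'_ib {N : ℕ} (h : Fa N → ℤ) : (fun e => gI' h (ib e)) = bcur h := by
  funext e
  exact fcur_ib h e

lemma gI'_inj {N : ℕ} : Function.Injective fun h : Hgt N => gI' h.1 := by
  intro h k hk
  apply bcur_inj
  show bcur h.1 = bcur k.1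
  rw [← gI'_ib, ← gI'_ib]
  funext e
  exact congrFun hk (ib e)

lemma gI'_div {N : ℕ} (h : Fa N → ℤ) (v : St N) (hv : v ∉ ringS N) :
    dvg (fun e : {e : Bd N // inI e} => bs e.1) (fun e => bt e.1) (gI' h) v = 0 := by
  rw [dvg_ib, gI'_ib]
  exact bdv_cur h ⟨_, (ringS_iff v).1 hv⟩

lemma gI'_surj {N : ℕ} (n : {e : Bd N // inI e} → ℤ)
    (hn : ∀ v, v ∉ ringS N →
      dvg (fun e : {e : Bd N // inI e} => bs e.1) (fun e => bt e.1) n v = 0) :
    ∃ h : Hgt N, gI' h.1 = n := by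
  obtain ⟨h, hh⟩ := bcur_surj (fun e => n (ib e)) fun w => by
    obtain ⟨v, hv, hw⟩ := ringS_of_inner w
    rw [← hw, ← dvg_ib]
    exact hn v hv
  refine ⟨h, ?_⟩
  funext e
  have h1 := congrFun hh (ib.symm e)
  have h2 := fcur_ib h.1 (ib.symm e)
  rw [h1, Equiv.apply_symm_apply] at h2
  exact h2

lemma hWt_gI {N : ℕ} {b : ℝ} (hb : 0 ≤ b) (h : Fa N → ℤ) :
    wJ (fun _ : {e : Bd N // inI e} => b) (gI' h) = hWt N b h := by
  rw [hWt_eq hb, wJ, ← ib.prod_comp]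
  exact Finset.prod_congr rfl fun e _ => by rw [← fcur_ib]; rfl

/-- **(D2w)** sum over the heights of the wired box -/
theorem wired_sum {N : ℕ} {b : ℝ} (hb : 0 ≤ b) {Φ : ({e : Bd N // inI e} → ℤ) → ℝ} {C : ℝ}
    (hΦ : ∀ n, |Φ n| ≤ C) :
    HasSum (fun h : Hgt N => hWt N b h.1 * Φ (gI' h.1))
      (∫ θ, UU (fun e : {e : Bd N // inI e} => bs e.1) (fun e => bt e.1) (fun _ => b) Φ
        (pin (ringS N) 0 θ) ∂(torusHaar (St N))) := by
  classical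
  have h := UU_int (fun e : {e : Bd N // inI e} => bs e.1) (fun e => bt e.1)
    (J := fun _ => b) (fun _ => hb) hΦ (ringS N)
  have h2 := (gI'_inj.hasSum_iff (f := fun n : {e : Bd N // inI e} → ℤ =>
      if ∀ v, v ∉ ringS N → dvg (fun e : {e : Bd N // inI e} => bs e.1) (fun e => bt e.1) n v = 0
        then wJ (fun _ => b) n * Φ n else 0) ?_).2 h
  · have e : ((fun n : {e : Bd N // inI e} → ℤ =>
      if ∀ v, v ∉ ringS N → dvg (fun e : {e : Bd N // inI e} => bs e.1) (fun e => bt e.1) n v = 0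
        then wJ (fun _ => b) n * Φ n else 0) ∘ fun h : Hgt N => gI' h.1) =
        fun h : Hgt N => hWt N b h.1 * Φ (gI' h.1) := by
      funext k
      simp only [Function.comp]
      rw [if_pos (gI'_div k.1), hWt_gI hb]
    rw [e] at h2
    exact h2
  · intro n hn
    rw [if_neg]
    intro hw
    obtain ⟨k, hk⟩ := gI'_surj n hw
    exact hn ⟨k, hk⟩

end Vale.Agent.P159.TM.H331
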